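import Vale.Agent.P099.Final

/-! # P099: direction-Lipschitz eigenfunctions of the billiard flow in irrational triangles -/

set_option autoImplicit false

namespace Vale.Agent.Results.P099.DirectionLipschitz

open Vale.Agent.P099

/-- For every triangle with at least one angle an irrational multiple of `π`: a function which is
multiplied by `exp (i lam t)` along the billiard trajectories and is uniformly Lipschitz in the
direction is constant, and it vanishes if `lam ≠ 0`. -/
theorem result {A : Fin 3 → ℂ} (hA : AffineIndependent ℝ A)
    (hirr : ∃ i, Irrational (EuclideanGeometry.angle (A (i + 1)) (A i) (A (i + 2)) / Real.pi))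
    {f : ℂ → ℂ → ℂ} {lam L : ℝ} (hf : Eig A lam f) (hL : LipDir A L f) :
    ∃ c : ℂ, (∀ x ∈ tri A, ∀ u : ℂ, ‖u‖ = 1 → f x u = c) ∧ (lam ≠ 0 → c = 0) :=
  main hA hirr hf hL

end Vale.Agent.Results.P099.DirectionLipschitz
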